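import Mathlib
import Vale.Agent.P078.Type3.Specs

/-! The complexified expectation: it is the limit of pinchings and commutes with conjugation by
normalising partial isometries. -/

noncomputable section

open scoped ComplexOrder
open Classical Filter Topology

set_option linter.unusedSectionVars false

namespace Vale.Agent.P078.T3

universe u v

variable {M : Type u} [CStarAlgebra M] [PartialOrder M] [StarOrderedRing M]
  {Ω : Type v} [TopologicalSpace Ω] [CompactSpace Ω] [T2Space Ω] {T : SMasa M Ω}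

lemma frm_tr_I_emb (h : C(Ω, ℝ)) : T.tr (Complex.I • T.emb h) = 0 := by
  have h1 := T.tr_star (Complex.I • T.emb h)
  rw [star_smul, (T.emb_selfAdjoint h).star_eq, show star Complex.I = -Complex.I from Complex.conj_I,
    neg_smul, map_neg] at h1
  linarith

lemma frm_tr_emb_mul_EC (g : C(Ω, ℝ)) (Y : M) : T.tr (T.emb g * T.EC Y) = T.tau (g * T.E Y) := by
  rw [SMasa.EC, mul_add, mul_smul_comm, ← map_mul, ← map_mul, map_add, frm_tr_I_emb, add_zero]
  rfl

lemma frm_EC_comm (Y : M) (f : C(Ω, ℝ)) : Commute (T.EC Y) (T.emb f) :=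
  (T.emb_comm _ f).add_left ((T.emb_comm _ f).smul_left _)

lemma frm_EC_mul_emb (Y : M) (f : C(Ω, ℝ)) : T.EC (Y * T.emb f) = T.EC Y * T.emb f := by
  rw [SMasa.EC, SMasa.EC, ← smul_mul_assoc, T.E_mul_emb, T.E_mul_emb, add_mul, smul_mul_assoc,
    ← map_mul, ← map_mul, mul_comm f, mul_comm f]

lemma frm_EC_emb_mul (Y : M) (f : C(Ω, ℝ)) : T.EC (T.emb f * Y) = T.emb f * T.EC Y := by
  rw [SMasa.EC, SMasa.EC, ← mul_smul_comm, T.E_emb_mul, T.E_emb_mul, mul_add, mul_smul_comm,
    ← map_mul, ← map_mul]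

lemma frm_pinch_complex_smul (P : Part Ω) (c : ℂ) (Y : M) :
    T.pinch P (c • Y) = c • T.pinch P Y := by
  simp [SMasa.pinch_apply, Finset.smul_sum]

/-- pinchings converge to the complexified expectation -/
lemma frm_tendsto2_pinch_EC (Y : M) :
    T.Tendsto2 atTop (fun P => T.pinch P Y) (T.EC Y) := by
  set Z : M := (-Complex.I) • Y with hZ
  set a : M := (1 / 2 : ℝ) • (Y + star Y) with ha
  set b : M := (1 / 2 : ℝ) • (Z + star Z) with hb
  have hsa : ∀ x : M, IsSelfAdjoint ((1 / 2 : ℝ) • (x + star x)) := fun x =>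
    IsSelfAdjoint.smul (IsSelfAdjoint.all (1 / 2 : ℝ)) (IsSelfAdjoint.add_star_self x)
  have hE : ∀ x : M, T.E ((1 / 2 : ℝ) • (x + star x)) = T.E x := fun x => by
    rw [map_smul, map_add, T.E_star, ← two_smul ℝ (T.E x), smul_smul]; norm_num
  have hI : Complex.I • Z = Y := by
    rw [hZ, smul_smul]; simp
  have hI' : Complex.I • star Z = -star Y := by
    rw [hZ, star_smul, smul_smul]; simp
  have hY : a + Complex.I • b = Y := by
    rw [hb, ha, smul_comm Complex.I (1 / 2 : ℝ), smul_add Complex.I, hI, hI', ← smul_add,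
      add_add_add_comm, add_neg_cancel, add_zero, ← two_smul ℝ Y, smul_smul]
    norm_num
  have h1 := T.tendsto_pinch (hsa Y)
  have h2 := (T.tendsto_pinch (hsa Z)).const_mul T (Complex.I • (1 : M))
  rw [hE] at h1 h2
  have h3 := h1.add T h2
  simp only [smul_mul_assoc, one_mul] at h3
  refine h3.congr' T (.of_forall fun P => ?_)
  rw [← frm_pinch_complex_smul, ← map_add, hY]

namespace GElt

variable (g : GElt T)

lemma frm_W_mul_dom : g.W * T.emb g.dom = g.W := by
  refine sub_eq_zero.1 ((CStarRing.star_mul_self_eq_zero_iff _).1 ?_)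
  have h : ∀ x : M, T.emb g.dom * (T.emb g.dom * x) = T.emb g.dom * x := fun x => by
    rw [← mul_assoc, ← map_mul, g.dom_idem]
  simp only [star_sub, star_mul, T.star_emb, sub_mul, mul_sub, mul_assoc]
  simp only [← mul_assoc (star g.W) g.W, g.star_W_mul, ← map_mul, g.dom_idem]
  abel

lemma frm_ran_mul_W : T.emb g.ran * g.W = g.W := by
  rw [← g.W_mul_star, mul_assoc, g.star_W_mul, g.frm_W_mul_dom]

lemma frm_W_mul_emb (z : C(Ω, ℝ)) : g.W * T.emb z = T.emb (z.comp g.toDom) * g.W := by
  calc g.W * T.emb z = g.W * T.emb z * T.emb g.dom := by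
        rw [mul_assoc, (T.emb_comm z g.dom).eq, ← mul_assoc, g.frm_W_mul_dom]
    _ = T.emb (g.ran * z.comp g.toDom) * g.W := by
        rw [← g.star_W_mul, ← mul_assoc, g.conj]
    _ = _ := by rw [mul_comm, map_mul, mul_assoc, g.frm_ran_mul_W]

lemma frm_star_W_mul_emb (z : C(Ω, ℝ)) :
    star g.W * T.emb z = T.emb (z.comp g.toRan) * star g.W :=
  g.inv.frm_W_mul_emb z

end GElt

lemma frm_E_conj (g : GElt T) (Y : M) :
    T.E (g.W * Y * star g.W) = g.ran * (T.E Y).comp g.toDom := by
  refine T.eq_of_tau_mul fun f => ?_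
  rw [T.tau_mul_E]
  set X := g.W * Y * star g.W with hX
  have hone : ∀ (e : C(Ω, ℝ)), e * e = e → ∀ x : M,
      T.tr (T.emb f * (T.emb e * x * T.emb e)) = T.tr (T.emb (f * e) * x) := by
    intro e he x
    rw [← mul_assoc, ← mul_assoc, ← T.central, ← mul_assoc, ← mul_assoc, ← map_mul T.emb,
      ← map_mul T.emb, mul_comm e f, mul_assoc f, he]
  have hrX : T.emb g.ran * X = X := by
    rw [hX, ← mul_assoc, ← mul_assoc, g.frm_ran_mul_W]
  have hP : ∀ P : Part Ω, T.tr (T.emb f * (g.W * T.pinch P Y * star g.W)) = T.tr (T.emb f * X) := by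
    intro P
    have hh : ∀ i, g.W * (T.emb (P.e i) * Y * T.emb (P.e i)) * star g.W =
        T.emb (g.ran * (P.e i).comp g.toDom) * X * T.emb (g.ran * (P.e i).comp g.toDom) := by
      intro i
      have e1 : T.emb (g.ran * (P.e i).comp g.toDom) * g.W = g.W * T.emb (P.e i) := by
        rw [g.frm_W_mul_emb, mul_comm g.ran, map_mul, mul_assoc, g.frm_ran_mul_W]
      have e2 : star g.W * T.emb (g.ran * (P.e i).comp g.toDom) = T.emb (P.e i) * star g.W := by
        have := congrArg star e1
        rw [star_mul, star_mul, T.star_emb, T.star_emb] at this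
        exact this
      simp only [hX, mul_assoc, e2]
      simp only [← mul_assoc, e1]
    have hidem : ∀ i, (g.ran * (P.e i).comp g.toDom) * (g.ran * (P.e i).comp g.toDom) =
        g.ran * (P.e i).comp g.toDom := fun i => by
      rw [mul_mul_mul_comm, g.ran_idem, ← ContinuousMap.mul_comp, P.isPartition.idem]
    have hsum : ∑ i, g.ran * (P.e i).comp g.toDom = g.ran := by
      refine ContinuousMap.ext fun b => ?_
      have h1 : (∑ i, P.e i) (g.toDom b) = 1 := by
        rw [P.isPartition.sum_one]; rfl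
      rw [ContinuousMap.sum_apply] at h1
      simp only [ContinuousMap.sum_apply, ContinuousMap.mul_apply, ContinuousMap.comp_apply]
      rw [← Finset.mul_sum, h1, mul_one]
    simp only [SMasa.pinch_apply, Finset.mul_sum, Finset.sum_mul, hh, map_sum]
    calc ∑ i, T.tr (T.emb f * (T.emb (g.ran * (P.e i).comp g.toDom) * X *
          T.emb (g.ran * (P.e i).comp g.toDom)))
        = ∑ i, T.tr (T.emb (f * (g.ran * (P.e i).comp g.toDom)) * X) := by
          refine Finset.sum_congr rfl fun i _ => ?_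
          exact hone _ (hidem i) X
      _ = T.tr (T.emb f * X) := by
          rw [← map_sum, ← Finset.sum_mul, ← map_sum, ← Finset.mul_sum, hsum, map_mul T.emb, mul_assoc,
            hrX]
  have hlim := (((frm_tendsto2_pinch_EC Y).mul_const T (star g.W)
    (.of_forall fun P => T.norm_pinch_le P Y)).const_mul T (T.emb f * g.W)).tr_tendsto T
  have e : ∀ P : Part Ω, T.tr (T.emb f * g.W * (T.pinch P Y * star g.W)) = T.tr (T.emb f * X) :=
    fun P => by rw [← hP P]; simp only [mul_assoc]
  simp only [e] at hlim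
  rw [tendsto_nhds_unique tendsto_const_nhds hlim, SMasa.EC]
  simp only [mul_add, add_mul, mul_smul_comm, smul_mul_assoc, map_add]
  simp only [mul_assoc]
  simp only [← mul_assoc g.W, g.conj, ← map_mul, frm_tr_I_emb, add_zero]
  rfl

/-- equivariance of the complexified expectation -/
lemma frm_EC_conj (g : GElt T) (Y : M) :
    g.W * T.EC Y * star g.W = T.EC (g.W * Y * star g.W) := by
  simp only [SMasa.EC, mul_add, add_mul, mul_smul_comm, smul_mul_assoc, g.conj, frm_E_conj]
  rw [← smul_mul_assoc, ← mul_smul_comm, frm_E_conj]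

lemma frm_W_mul_EC (g : GElt T) (Z : M) :
    g.W * T.EC (star g.W * Z) = T.EC (Z * star g.W) * g.W := by
  calc g.W * T.EC (star g.W * Z) = g.W * T.EC (star g.W * Z) * T.emb g.dom := by
        rw [mul_assoc, (frm_EC_comm _ g.dom).eq, ← mul_assoc, g.frm_W_mul_dom]
    _ = T.EC (g.W * (star g.W * Z) * star g.W) * g.W := by
        rw [← g.star_W_mul, ← mul_assoc, frm_EC_conj]
    _ = T.EC (Z * star g.W) * g.W := by
        rw [← mul_assoc g.W, g.W_mul_star, mul_assoc (T.emb g.ran), frm_EC_emb_mul,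
          ← (frm_EC_comm _ g.ran).eq, mul_assoc, g.frm_ran_mul_W]

end Vale.Agent.P078.T3
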