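import Mathlib
import Vale.Agent.P078.Type3.Forms.Complex

/-! The limit of the diagonal sums of a trilinear form applied to two graph operators, in closed
form, and the rule moving a graph from one side to the other. -/

noncomputable section

open scoped ComplexOrder
open Classical Filter Topology

set_option linter.unusedSectionVars false

namespace Vale.Agent.P078.T3

universe u v w

variable {M : Type u} [CStarAlgebra M] [PartialOrder M] [StarOrderedRing M]
  {Ω : Type v} [TopologicalSpace Ω] [CompactSpace Ω] [T2Space Ω] {T : SMasa M Ω}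

lemma frm_list_sum_comm {α β : Type*} (L : List α) (R : List β) (f : α → β → ℝ) :
    (L.map fun a => (R.map fun b => f a b).sum).sum
      = (R.map fun b => (L.map fun a => f a b).sum).sum := by
  induction L with
  | nil => simp
  | cons a L ih => simp [ih, List.sum_map_add]

lemma frm_finset_list_sum_comm {α β : Type*} (s : Finset α) (L : List β) (f : α → β → ℝ) :
    ∑ a ∈ s, (L.map fun b => f a b).sum = (L.map fun b => ∑ a ∈ s, f a b).sum := by
  induction L with
  | nil => simp
  | cons b L ih => simp [ih, Finset.sum_add_distrib]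

lemma frm_tendsto_list_sum {α β : Type*} {l : Filter α} (L : List β) (f : β → α → ℝ) (a : β → ℝ)
    (h : ∀ b ∈ L, Tendsto (f b) l (𝓝 (a b))) :
    Tendsto (fun x => (L.map fun b => f b x).sum) l (𝓝 (L.map a).sum) := by
  induction L with
  | nil => simp [tendsto_const_nhds]
  | cons b L ih =>
    simp only [List.map_cons, List.sum_cons]
    exact (h b List.mem_cons_self).add (ih fun c hc => h c (List.mem_cons_of_mem _ hc))

lemma frm_form3_add_left (F : List (M × M × M)) (u u' v : C(Ω, ℝ)) :
    form3 T F (u + u') v = form3 T F u v + form3 T F u' v := by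
  simp [form3, map_add, mul_add, add_mul, List.sum_map_add]

lemma frm_form3_add_right (F : List (M × M × M)) (u v v' : C(Ω, ℝ)) :
    form3 T F u (v + v') = form3 T F u v + form3 T F u v' := by
  simp [form3, map_add, mul_add, add_mul, List.sum_map_add]

lemma frm_form3_zero_left (F : List (M × M × M)) (v : C(Ω, ℝ)) : form3 T F 0 v = 0 := by
  have := frm_form3_add_left (T := T) F 0 0 v
  rw [add_zero] at this; linarith

lemma frm_form3_zero_right (F : List (M × M × M)) (u : C(Ω, ℝ)) : form3 T F u 0 = 0 := by
  have := frm_form3_add_right (T := T) F u 0 0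
  rw [add_zero] at this; linarith

lemma frm_form3_smul_left (F : List (M × M × M)) (c : ℝ) (u v : C(Ω, ℝ)) :
    form3 T F (c • u) v = c * form3 T F u v := by
  simp [form3, map_smul, List.sum_map_mul_left]

lemma frm_form3_smul_right (F : List (M × M × M)) (c : ℝ) (u v : C(Ω, ℝ)) :
    form3 T F u (c • v) = c * form3 T F u v := by
  simp [form3, map_smul, List.sum_map_mul_left]

lemma frm_form3_list_left {β : Type*} (F : List (M × M × M)) (L : List β) (f : β → C(Ω, ℝ))
    (v : C(Ω, ℝ)) : form3 T F (L.map f).sum v = (L.map fun b => form3 T F (f b) v).sum := by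
  induction L with
  | nil => simp [frm_form3_zero_left]
  | cons b L ih => simp [frm_form3_add_left, ih]

lemma frm_form3_list_right {β : Type*} (F : List (M × M × M)) (L : List β) (f : β → C(Ω, ℝ))
    (u : C(Ω, ℝ)) : form3 T F u (L.map f).sum = (L.map fun b => form3 T F u (f b)).sum := by
  induction L with
  | nil => simp [frm_form3_zero_right]
  | cons b L ih => simp [frm_form3_add_right, ih]

variable {ι κ lab : Type}

/-- the diagonal sum of the form over a partition -/
def diagSum [Fintype ι] [DecidableEq ι] (F : List (M × M × M)) (X Y : GOp T Unit ι) (P : Part Ω) : ℝ :=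
  ∑ j, ∑ e, form3 T F (X.app (Pi.single j (P.e e)) ()) (Y.app (Pi.single j (P.e e)) ())

/-- the value of one pair of translations -/
def pairVal (F : List (M × M × M)) (c : C(Ω, ℝ)) (W : M) (d : C(Ω, ℝ)) (W' : M) : ℝ :=
  (F.map fun a => T.tr (a.1 * (T.emb c * W) * T.EC (star W * a.2.1 * (T.emb d * W'))
    * (star W' * a.2.2))).sum

/-- the limit of the diagonal sums -/
def formVal (F : List (M × M × M)) (X Y : GOp T Unit ι) : ℝ :=
  (X.map fun s => (Y.map fun t =>
    if s.col = t.col then pairVal (T := T) F s.coef s.g.W t.coef t.g.W else 0).sum).sum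

lemma formVal_add_left (F : List (M × M × M)) (X X' Y : GOp T Unit ι) :
    formVal F (X ++ X') Y = formVal F X Y + formVal F X' Y := by
  simp [formVal]

lemma formVal_add_right (F : List (M × M × M)) (X Y Y' : GOp T Unit ι) :
    formVal F X (Y ++ Y') = formVal F X Y + formVal F X Y' := by
  simp [formVal, List.sum_map_add]

lemma tendsto_pair (F : List (M × M × M)) (c d : C(Ω, ℝ)) (g g' : GElt T) :
    Tendsto (fun P : Part Ω => ∑ e, form3 T F (c * g.ran * (P.e e).comp g.toDom)
      (d * g'.ran * (P.e e).comp g'.toDom)) atTop (𝓝 (pairVal (T := T) F c g.W d g'.W)) := by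
  simp only [form3, frm_finset_list_sum_comm]
  refine frm_tendsto_list_sum _ _ _ fun a _ => ?_
  set N := star g.W * a.2.1 * (T.emb d * g'.W) with hN
  have h := (((frm_tendsto2_pinch_EC (T := T) N).mul_const T (star g'.W * a.2.2)
    (.of_forall fun P => T.norm_pinch_le P N)).const_mul T
      (a.1 * (T.emb c * g.W))).tr_tendsto T
  simp only [← mul_assoc (a.1 * (T.emb c * g.W))] at h
  refine h.congr fun P => ?_
  simp only [SMasa.pinch_apply, Finset.mul_sum, Finset.sum_mul, map_sum]
  refine Finset.sum_congr rfl fun e _ => ?_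
  rw [mul_assoc c g.ran, mul_assoc d g'.ran, map_mul T.emb c, map_mul T.emb d, ← g.conj,
    ← g'.conj, hN]
  simp only [mul_assoc]

lemma frm_app_single [DecidableEq ι] (X : GOp T Unit ι) (j : ι) (f : C(Ω, ℝ)) :
    X.app (Pi.single j f) () = (X.map fun s => if s.col = j then
      s.coef * s.g.ran * f.comp s.g.toDom else 0).sum := by
  unfold GOp.app
  congr 1
  refine List.map_congr_left fun s _ => ?_
  by_cases hs : s.col = j
  · simp [hs]
  · simp [hs]

lemma diagSum_eq [Fintype ι] [DecidableEq ι] (F : List (M × M × M)) (X Y : GOp T Unit ι) (P : Part Ω) :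
    diagSum F X Y P = (X.map fun s => (Y.map fun t => if s.col = t.col then
      ∑ e, form3 T F (s.coef * s.g.ran * (P.e e).comp s.g.toDom)
        (t.coef * t.g.ran * (P.e e).comp t.g.toDom) else 0).sum).sum := by
  simp only [diagSum, frm_app_single, frm_form3_list_left, frm_form3_list_right, frm_finset_list_sum_comm]
  rw [frm_list_sum_comm]
  congr 1
  refine List.map_congr_left fun s _ => ?_
  congr 1
  refine List.map_congr_left fun t _ => ?_
  rw [Finset.sum_eq_single s.col (fun j _ hj => by simp [Ne.symm hj, frm_form3_zero_left])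
    (fun h => absurd (Finset.mem_univ _) h)]
  by_cases hst : s.col = t.col
  · simp [hst]
  · simp [hst, Ne.symm hst, frm_form3_zero_right]

/-- the diagonal sums converge -/
theorem tendsto_diagSum [Fintype ι] [DecidableEq ι] (F : List (M × M × M)) (X Y : GOp T Unit ι) :
    Tendsto (diagSum F X Y) atTop (𝓝 (formVal F X Y)) := by
  rw [funext (diagSum_eq F X Y)]
  refine frm_tendsto_list_sum _ _ _ fun s _ => frm_tendsto_list_sum _ _ _ fun t _ => ?_
  split_ifs
  · exact tendsto_pair F _ _ _ _
  · exact tendsto_const_nhds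

lemma frm_sum_map_mul {α β lab' : Type} (S : GOp T α β) (R : GOp T β lab')
    (φ : Term T α lab' → ℝ) :
    ((S.mul R).map φ).sum = (S.map fun s => (R.map fun t => if s.col = t.row then
      φ ⟨s.row, t.col, s.coef * t.coef.comp s.g.toDom, s.g.mul t.g⟩ else 0).sum).sum := by
  unfold GOp.mul
  induction S with
  | nil => simp
  | cons s S ih =>
    simp only [List.flatMap_cons, List.map_append, List.sum_append, ih, List.map_cons,
      List.sum_cons]
    congr 1
    clear ih
    induction R with
    | nil => simp
    | cons t R ih =>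
      by_cases h : s.col = t.row
      · simp [h] at ih ⊢; rw [ih]
      · simp [h] at ih ⊢; rw [ih]

lemma pairVal_move (F : List (M × M × M)) (c z d : C(Ω, ℝ)) (g h k : GElt T) :
    pairVal (T := T) F (c * z.comp g.toDom) (g.mul h).W d k.W =
      pairVal (T := T) F c g.W (d * (z.comp h.toRan).comp k.toDom) (k.mul h.inv).W := by
  unfold pairVal
  congr 1
  refine List.map_congr_left fun a _ => congrArg T.tr ?_
  set N := star g.W * a.2.1 * (T.emb d * k.W) with hN
  have e1 : T.emb (c * z.comp g.toDom) * (g.mul h).W = T.emb c * g.W * T.emb z * h.W := by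
    show _ * (g.W * h.W) = _
    rw [map_mul, mul_assoc (T.emb c) g.W, g.frm_W_mul_emb]
    simp only [mul_assoc]
  have e2 : T.emb (d * (z.comp h.toRan).comp k.toDom) * (k.mul h.inv).W =
      T.emb d * k.W * star h.W * T.emb z := by
    show _ * (k.W * star h.W) = _
    rw [map_mul, mul_assoc (T.emb d * k.W), h.frm_star_W_mul_emb]
    simp only [mul_assoc]
    rw [← mul_assoc k.W, k.frm_W_mul_emb]
    simp only [mul_assoc]
  have hl : star (g.mul h).W * a.2.1 * (T.emb d * k.W) = star h.W * N := by
    show star (g.W * h.W) * _ * _ = _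
    simp only [hN, star_mul, mul_assoc]
  have hr : star g.W * a.2.1 * (T.emb (d * (z.comp h.toRan).comp k.toDom) * (k.mul h.inv).W) =
      N * star h.W * T.emb z := by
    rw [e2]; simp only [hN, mul_assoc]
  rw [hl, hr, e1, frm_EC_mul_emb, (frm_EC_comm _ z).eq,
    show star (k.mul h.inv).W = h.W * star k.W by
      show star (k.W * star h.W) = _
      rw [star_mul, star_star]]
  simp only [mul_assoc]
  rw [← mul_assoc h.W, frm_W_mul_EC, mul_assoc]

/-- a graph moves to the other side transposed -/
theorem formVal_move (F : List (M × M × M)) (X : GOp T Unit ι) (Z : GOp T ι κ)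
    (Y : GOp T Unit κ) : formVal F (X.mul Z) Y = formVal F X (Y.mul Z.tp) := by
  unfold formVal
  rw [frm_sum_map_mul]
  congr 1
  refine List.map_congr_left fun s _ => ?_
  rw [frm_sum_map_mul, frm_list_sum_comm Y]
  simp only [GOp.tp, List.map_map, Function.comp_def]
  congr 1
  refine List.map_congr_left fun z _ => ?_
  by_cases h : s.col = z.row
  · rw [if_pos h]
    congr 1
    refine List.map_congr_left fun y _ => ?_
    by_cases h2 : z.col = y.col
    · rw [if_pos h2, if_pos h2.symm, if_pos h]
      exact pairVal_move F _ _ _ _ _ _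
    · rw [if_neg h2, if_neg (Ne.symm h2)]
  · rw [if_neg h]
    symm
    refine List.sum_eq_zero fun x hx => ?_
    obtain ⟨y, -, rfl⟩ := List.mem_map.1 hx
    simp [h]

/-- a kernel determines the action -/
lemma frm_app_eq_sum [Fintype ι] (X : GOp T Unit ι) (u : ι → C(Ω, ℝ)) (b : Ω) (s : Finset Ω)
    (hs : ∀ t ∈ X, t.g.toDom b ∈ s) :
    X.app u () b = ∑ l, ∑ a ∈ s, X.ker (b, ()) (a, l) * u l a := by
  induction X with
  | nil => simp [GOp.app, GOp.ker]
  | cons t X ih =>
    have h1 : GOp.app (t :: X) u () b =
        t.coef b * t.g.ran b * u t.col (t.g.toDom b) + GOp.app X u () b := by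
      simp [GOp.app]
    have h2 : ∀ l a, GOp.ker (t :: X) (b, ()) (a, l) =
        (if t.col = l ∧ t.g.toDom b = a then t.coef b * t.g.ran b else 0) +
          GOp.ker X (b, ()) (a, l) := by
      intro l a; simp [GOp.ker]
    rw [h1, ih fun r hr => hs r (List.mem_cons_of_mem _ hr)]
    simp only [h2, add_mul, Finset.sum_add_distrib]
    congr 1
    rw [Finset.sum_eq_single t.col (fun l _ hl => by simp [Ne.symm hl])
      (fun h => absurd (Finset.mem_univ _) h)]
    rw [Finset.sum_eq_single (t.g.toDom b) (fun a _ ha => by simp [Ne.symm ha])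
      (fun h => absurd (hs t List.mem_cons_self) h)]
    simp

lemma frm_app_congr_of_ker [Fintype ι] {X X' : GOp T Unit ι} (h : ∀ x y, X.ker x y = X'.ker x y)
    (u : ι → C(Ω, ℝ)) : X.app u () = X'.app u () := by
  refine ContinuousMap.ext fun b => ?_
  set s := ((X ++ X').map fun t => t.g.toDom b).toFinset
  have hs : ∀ t ∈ X ++ X', t.g.toDom b ∈ s := fun t ht =>
    List.mem_toFinset.2 (List.mem_map_of_mem ht)
  rw [frm_app_eq_sum X u b s fun t ht => hs t (List.mem_append_left _ ht),
    frm_app_eq_sum X' u b s fun t ht => hs t (List.mem_append_right _ ht)]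
  simp only [h]

/-- the limit only depends on the kernels -/
theorem formVal_congr [Fintype ι] (F : List (M × M × M)) {X X' Y Y' : GOp T Unit ι}
    (hX : ∀ x y, X.ker x y = X'.ker x y) (hY : ∀ x y, Y.ker x y = Y'.ker x y) :
    formVal F X Y = formVal F X' Y' :=
  tendsto_nhds_unique (tendsto_diagSum F X Y) ((tendsto_diagSum F X' Y').congr fun P => by
    simp only [diagSum, frm_app_congr_of_ker hX, frm_app_congr_of_ker hY])

lemma diagSum_diag_one (F : List (M × M × M)) (P : Part Ω) :
    diagSum F (GOp.diag (T := T) fun _ : Unit => (1 : C(Ω, ℝ)))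
      (GOp.diag (T := T) fun _ : Unit => (1 : C(Ω, ℝ))) P
      = ∑ e, form3 T F (P.e e) (P.e e) := by
  simp [diagSum, GOp.app, GOp.diag, GElt.one]

theorem formLimSpec : FormLimSpec T := by
  intro F
  have h := tendsto_diagSum (T := T) F (GOp.diag fun _ : Unit => (1 : C(Ω, ℝ)))
    (GOp.diag fun _ : Unit => (1 : C(Ω, ℝ)))
  simp only [funext (diagSum_diag_one F)] at h
  convert h using 3
  simp [formVal, pairVal, GOp.diag, GElt.one]

end Vale.Agent.P078.T3
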