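import Mathlib
import Vale.Agent.P078.Type3.Forms.Limit

/-! The kernel rules used by the comparison of forms. -/

noncomputable section

open scoped ComplexOrder
open Classical Filter Topology

set_option linter.unusedSectionVars false

namespace Vale.Agent.P078.T3

universe u v

variable {M : Type u} [CStarAlgebra M] [PartialOrder M] [StarOrderedRing M]
  {Ω : Type v} [TopologicalSpace Ω] [CompactSpace Ω] [T2Space Ω] {T : SMasa M Ω}
  {ι κ lab : Type}

namespace FormKer

lemma ker_append (S R : GOp T ι κ) (x : Ω × ι) (y : Ω × κ) :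
    GOp.ker (S ++ R) x y = S.ker x y + R.ker x y := by
  simp [GOp.ker]

lemma ker_smul (c : ℝ) (S : GOp T ι κ) (x : Ω × ι) (y : Ω × κ) :
    (S.smul c).ker x y = c * S.ker x y := by
  simp only [GOp.ker, GOp.smul, List.map_map, ← List.sum_map_mul_left, Function.comp_def]
  congr 1
  refine List.map_congr_left fun t _ => ?_
  split_ifs <;> simp [mul_assoc]

lemma ker_one (x y : Ω × Unit) :
    (GOp.diag (T := T) fun _ : Unit => (1 : C(Ω, ℝ))).ker x y = if x = y then 1 else 0 := by
  obtain ⟨b, u⟩ := x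
  obtain ⟨a, w⟩ := y
  simp [GOp.ker, GOp.diag, GElt.one]

/-- the points reached from `b` -/
def reach (S : GOp T ι κ) (b : Ω) : Finset Ω := (S.map fun t => t.g.toDom b).toFinset

lemma mem_reach {S : GOp T ι κ} {t : Term T ι κ} (ht : t ∈ S) (b : Ω) :
    t.g.toDom b ∈ reach S b := List.mem_toFinset.2 (List.mem_map_of_mem ht)

lemma ker_mul [Fintype κ] (S : GOp T ι κ) (R : GOp T κ lab) (x : Ω × ι) (z : Ω × lab)
    {s : Finset Ω} (hs : reach S x.1 ⊆ s) :
    (S.mul R).ker x z = ∑ y ∈ s ×ˢ (Finset.univ : Finset κ), S.ker x y * R.ker y z := by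
  have hmem : ∀ t ∈ S, t.g.toDom x.1 ∈ s := fun t ht => hs (mem_reach ht x.1)
  simp only [GOp.ker, frm_sum_map_mul, ← List.sum_map_mul_right, frm_finset_list_sum_comm]
  congr 1
  refine List.map_congr_left fun a ha => ?_
  rw [Finset.sum_eq_single (a.g.toDom x.1, a.col)]
  · by_cases h1 : a.row = x.2
    · simp only [h1, and_self, if_true, true_and]
      rw [← List.sum_map_mul_left]
      congr 1
      refine List.map_congr_left fun t _ => ?_
      by_cases h2 : a.col = t.row
      · simp only [h2, if_true, true_and]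
        show (if t.col = z.2 ∧ t.g.toDom (a.g.toDom x.1) = z.1 then
            (a.coef * t.coef.comp a.g.toDom) x.1 * (a.g.ran * t.g.ran.comp a.g.toDom) x.1 else 0) = _
        split_ifs
        · simp only [ContinuousMap.mul_apply, ContinuousMap.comp_apply]; ring
        · rw [mul_zero]
      · simp [h2, Ne.symm h2]
    · simp [h1]
  · intro y _ hy
    rw [if_neg, zero_mul]
    rintro ⟨-, h2, h3⟩
    exact hy (Prod.ext h3.symm h2.symm)
  · intro h
    exact absurd (Finset.mem_product.2 ⟨hmem a ha, Finset.mem_univ _⟩) h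

lemma ker_tp (S : GOp T ι κ) (x : Ω × ι) (y : Ω × κ) : S.tp.ker y x = S.ker x y := by
  simp only [GOp.ker, GOp.tp, List.map_map, Function.comp_def]
  congr 1
  refine List.map_congr_left fun t _ => ?_
  show (if t.col = y.2 ∧ t.row = x.2 ∧ t.g.toRan y.1 = x.1 then
      t.coef (t.g.toRan y.1) * t.g.dom y.1 else 0) = _
  by_cases hA : t.row = x.2
  · by_cases hB : t.col = y.2
    · simp only [hA, hB, true_and]
      rcases idem_zero_or_one t.g.ran_idem x.1 with hr | hr <;>
        rcases idem_zero_or_one t.g.dom_idem y.1 with hd | hd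
      · simp [hr, hd]
      · have h1 := t.g.ran_toRan _ hd
        rw [if_neg (fun e => by rw [e, hr] at h1; exact zero_ne_one h1)]
        simp [hr]
      · have h1 := t.g.dom_toDom _ hr
        rw [if_neg (fun e : t.g.toDom x.1 = y.1 => by rw [e, hd] at h1; exact zero_ne_one h1)]
        simp [hd]
      · by_cases e : t.g.toDom x.1 = y.1
        · have e' : t.g.toRan y.1 = x.1 := by rw [← e]; exact t.g.toRan_toDom _ hr
          rw [if_pos e, if_pos e', e', hr, hd]
        · rw [if_neg e, if_neg]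
          intro e'
          exact e (by rw [← e']; exact t.g.toDom_toRan _ hd)
    · simp [hA, hB]
  · simp [hA]

lemma mul_congr [Fintype κ] {S S' : GOp T ι κ} {R R' : GOp T κ lab}
    (hS : ∀ x y, S.ker x y = S'.ker x y) (hR : ∀ x y, R.ker x y = R'.ker x y) (x : Ω × ι)
    (z : Ω × lab) : (S.mul R).ker x z = (S'.mul R').ker x z := by
  rw [ker_mul S R x z (Finset.subset_union_left (s₂ := reach S' x.1)),
    ker_mul S' R' x z (Finset.subset_union_right (s₁ := reach S x.1))]
  simp only [hS, hR]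

lemma one_mul_ker (R : GOp T Unit lab) (x : Ω × Unit) (z : Ω × lab) :
    ((GOp.diag fun _ : Unit => (1 : C(Ω, ℝ))).mul R).ker x z = R.ker x z := by
  rw [ker_mul _ R x z (s := insert x.1 (reach _ x.1)) (Finset.subset_insert _ _)]
  rw [Finset.sum_eq_single x (fun y _ hy => by rw [ker_one, if_neg (Ne.symm hy), zero_mul])
    (fun h => absurd (Finset.mem_product.2 ⟨Finset.mem_insert_self _ _, Finset.mem_univ _⟩) h),
    ker_one, if_pos rfl, one_mul]

lemma mul_one_ker (S : GOp T ι Unit) (x : Ω × ι) (z : Ω × Unit) :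
    (S.mul (GOp.diag fun _ : Unit => (1 : C(Ω, ℝ)))).ker x z = S.ker x z := by
  rw [ker_mul S _ x z (s := insert z.1 (reach S x.1)) (Finset.subset_insert _ _)]
  rw [Finset.sum_eq_single z (fun y _ hy => by rw [ker_one, if_neg hy, mul_zero])
    (fun h => absurd (Finset.mem_product.2 ⟨Finset.mem_insert_self _ _, Finset.mem_univ _⟩) h),
    ker_one, if_pos rfl, mul_one]

lemma mul_append_right_ker [Fintype κ] (S : GOp T ι κ) (R R' : GOp T κ lab) (x : Ω × ι)
    (z : Ω × lab) : (S.mul (R ++ R')).ker x z = (S.mul R).ker x z + (S.mul R').ker x z := by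
  simp only [ker_mul S _ x z (Finset.Subset.refl _), ker_append, mul_add, Finset.sum_add_distrib]

lemma mul_append_left_ker [Fintype κ] (S S' : GOp T ι κ) (R : GOp T κ lab) (x : Ω × ι)
    (z : Ω × lab) : ((S ++ S').mul R).ker x z = (S.mul R).ker x z + (S'.mul R).ker x z := by
  rw [← ker_append]
  simp [GOp.mul]

lemma mul_smul_right_ker [Fintype κ] (c : ℝ) (S : GOp T ι κ) (R : GOp T κ lab) (x : Ω × ι)
    (z : Ω × lab) : (S.mul (R.smul c)).ker x z = c * (S.mul R).ker x z := by
  simp only [ker_mul S _ x z (Finset.Subset.refl _), ker_smul, Finset.mul_sum]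
  exact Finset.sum_congr rfl fun y _ => by ring

lemma mul_smul_left_ker [Fintype κ] (c : ℝ) (S : GOp T ι κ) (R : GOp T κ lab) (x : Ω × ι)
    (z : Ω × lab) : ((S.smul c).mul R).ker x z = c * (S.mul R).ker x z := by
  rw [ker_mul (S.smul c) R x z (Finset.subset_union_left (s₂ := reach S x.1)),
    ker_mul S R x z (Finset.subset_union_right (s₁ := reach (S.smul c) x.1))]
  simp only [ker_smul, Finset.mul_sum, mul_assoc]

lemma mul_symm {S : GOp T ι κ} {R : GOp T κ ι} [Fintype κ] {S' : GOp T ι κ} {R' : GOp T κ ι}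
    (hS : ∀ x y, S.ker x y = R'.ker y x) (hR : ∀ x y, R.ker x y = S'.ker y x) (x z : Ω × ι) :
    (S.mul R).ker x z = (S'.mul R').ker z x := by
  rw [ker_mul S R x z (Finset.subset_union_left (s₂ := reach S' z.1)),
    ker_mul S' R' z x (Finset.subset_union_right (s₁ := reach S x.1))]
  simp only [hS, hR, mul_comm]

section Bound

variable {X Y Z : Type*}

lemma opBd_congr {k k' : X → Y → ℝ} {c : ℝ} (h : ∀ x y, k x y = k' x y) (hk : OpBd k c) :
    OpBd k' c := by
  intro s t f g
  simpa only [h] using hk s t f g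

lemma opBd_add {k k' : X → Y → ℝ} {c c' : ℝ} (h : OpBd k c) (h' : OpBd k' c') :
    OpBd (fun x y => k x y + k' x y) (c + c') := by
  intro s t f g
  simp only [mul_add, add_mul, Finset.sum_add_distrib]
  exact (abs_add_le _ _).trans (add_le_add (h s t f g) (h' s t f g))

lemma opBd_smul {k : X → Y → ℝ} {c a : ℝ} (ha : 0 ≤ a) (h : OpBd k c) :
    OpBd (fun x y => a * k x y) (a * c) := by
  intro s t f g
  have e : ∑ x ∈ s, ∑ y ∈ t, f x * (a * k x y) * g y =
      a * ∑ x ∈ s, ∑ y ∈ t, f x * k x y * g y := by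
    simp only [Finset.mul_sum]
    exact Finset.sum_congr rfl fun x _ => Finset.sum_congr rfl fun y _ => by ring
  rw [e, abs_mul, abs_of_nonneg ha, mul_assoc a, mul_assoc a]
  exact mul_le_mul_of_nonneg_left (h s t f g) ha

lemma opBd_vec {k : X → Y → ℝ} {c : ℝ} (hc : 0 ≤ c) (h : OpBd k c) (s : Finset X) (t : Finset Y)
    (g : Y → ℝ) : Real.sqrt (∑ x ∈ s, (∑ y ∈ t, k x y * g y) ^ 2)
      ≤ c * Real.sqrt (∑ y ∈ t, g y ^ 2) := by
  set S := ∑ x ∈ s, (∑ y ∈ t, k x y * g y) ^ 2 with hS
  have h1 := h s t (fun x => ∑ y ∈ t, k x y * g y) g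
  have e : ∑ x ∈ s, ∑ y ∈ t, (∑ z ∈ t, k x z * g z) * k x y * g y = S := by
    rw [hS]
    refine Finset.sum_congr rfl fun x _ => ?_
    simp only [mul_assoc]
    rw [← Finset.mul_sum, sq]
  rw [e, ← hS, abs_of_nonneg (Finset.sum_nonneg fun x _ => sq_nonneg _)] at h1
  rcases (Real.sqrt_nonneg S).eq_or_lt with h0 | h0
  · rw [← h0]; positivity
  · refine le_of_mul_le_mul_left ?_ h0
    rw [← sq, Real.sq_sqrt (Finset.sum_nonneg fun x _ => sq_nonneg _)]
    linarith

lemma opBd_row {k : X → Y → ℝ} {c : ℝ} (h : OpBd k c) (x : X) (t : Finset Y) :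
    ∑ y ∈ t, k x y ^ 2 ≤ c ^ 2 := by
  have h1 := h {x} t (fun _ => 1) (k x)
  simp only [Finset.sum_singleton, one_mul, one_pow, Real.sqrt_one, mul_one, ← sq] at h1
  have hS : 0 ≤ ∑ y ∈ t, k x y ^ 2 := Finset.sum_nonneg fun y _ => sq_nonneg _
  rw [abs_of_nonneg hS] at h1
  have h2 := pow_le_pow_left₀ hS h1 2
  rw [mul_pow, Real.sq_sqrt hS] at h2
  rcases hS.eq_or_lt with h0 | h0
  · rw [← h0]; positivity
  · nlinarith

lemma opBd_tp {k : X → Y → ℝ} {c : ℝ} (h : OpBd k c) : OpBd (fun y x => k x y) c := by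
  intro s t f g
  have h1 := h t s g f
  rw [Finset.sum_comm]
  calc |∑ y ∈ t, ∑ x ∈ s, f x * k y x * g y| = |∑ y ∈ t, ∑ x ∈ s, g y * k y x * f x| := by
        refine congrArg abs ?_
        exact Finset.sum_congr rfl fun y _ => Finset.sum_congr rfl fun x _ => by ring
    _ ≤ _ := h1.trans (le_of_eq (by ring))

lemma opBd_delta : OpBd (fun x y : X => if x = y then (1 : ℝ) else 0) 1 := by
  intro s t f g
  have e : ∑ x ∈ s, ∑ y ∈ t, f x * (if x = y then (1 : ℝ) else 0) * g y =
      ∑ x ∈ s ∩ t, f x * g x := by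
    simp only [mul_ite, mul_one, mul_zero, ite_mul, zero_mul, Finset.sum_ite_eq]
    rw [Finset.sum_ite_mem]
  rw [e, one_mul]
  refine (Finset.abs_sum_le_sum_abs _ _).trans ?_
  simp only [abs_mul]
  refine (Real.sum_mul_le_sqrt_mul_sqrt _ _ _).trans ?_
  simp only [sq_abs]
  gcongr
  · exact Finset.inter_subset_left
  · exact Finset.inter_subset_right

end Bound

lemma opBd_mul [Fintype κ] {S : GOp T ι κ} {R : GOp T κ lab} {a b : ℝ} (ha : 0 ≤ a) (hb : 0 ≤ b)
    (hS : OpBd S.ker a) (hR : OpBd R.ker b) : OpBd (S.mul R).ker (a * b) := by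
  intro s t f g
  set Y := (s.biUnion fun x => reach S x.1) ×ˢ (Finset.univ : Finset κ) with hY
  set v := fun y => ∑ z ∈ t, R.ker y z * g z with hv
  have e : ∑ x ∈ s, ∑ z ∈ t, f x * (S.mul R).ker x z * g z =
      ∑ x ∈ s, ∑ y ∈ Y, f x * S.ker x y * v y := by
    refine Finset.sum_congr rfl fun x hx => ?_
    simp only [ker_mul S R x _ (Finset.subset_biUnion_of_mem (fun x => reach S x.1) hx),
      Finset.mul_sum, Finset.sum_mul, hv]
    rw [Finset.sum_comm]
    exact Finset.sum_congr rfl fun y _ => Finset.sum_congr rfl fun z _ => by ring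
  rw [e]
  refine (hS s Y f v).trans ?_
  calc a * Real.sqrt (∑ x ∈ s, f x ^ 2) * Real.sqrt (∑ y ∈ Y, v y ^ 2)
      ≤ a * Real.sqrt (∑ x ∈ s, f x ^ 2) * (b * Real.sqrt (∑ z ∈ t, g z ^ 2)) :=
        mul_le_mul_of_nonneg_left (opBd_vec hb hR Y t g) (by positivity)
    _ = _ := by ring

end FormKer

end Vale.Agent.P078.T3
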