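import Mathlib
import Vale.Agent.P078.Type3.Forms.Ker

/-! Positive trilinear forms are monotone in the covariance. The gap between the covariance
`S Sᵗ` and the identity is a square up to a small error: `y ↦ (x + y²) / 2` iterated from `0`
gives `y n` with `1 - x = (1 - y n)² - 2 (y (n+1) - y n)`. -/

noncomputable section

open scoped ComplexOrder
open Classical Filter Topology

set_option linter.unusedSectionVars false

namespace Vale.Agent.P078.T3

universe u v

variable {M : Type u} [CStarAlgebra M] [PartialOrder M] [StarOrderedRing M]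
  {Ω : Type v} [TopologicalSpace Ω] [CompactSpace Ω] [T2Space Ω] {T : SMasa M Ω}

open FormKer

/-- the scalar bounds of the iteration -/
def sqIter : ℕ → ℝ
  | 0 => 0
  | n + 1 => (1 + sqIter n ^ 2) / 2

lemma sqIter_mem : ∀ n, 0 ≤ sqIter n ∧ sqIter n < 1
  | 0 => ⟨le_rfl, one_pos⟩
  | n + 1 => by
    obtain ⟨h0, h1⟩ := sqIter_mem n
    simp only [sqIter]
    constructor
    · positivity
    · nlinarith

lemma sqIter_step (n : ℕ) : 0 < sqIter (n + 1) - sqIter n := by
  obtain ⟨h0, h1⟩ := sqIter_mem n
  have : 0 < (1 - sqIter n) ^ 2 := pow_pos (by linarith) 2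
  simp only [sqIter]
  linarith

lemma sqIter_gap : Tendsto (fun n => sqIter (n + 1) - sqIter n) atTop (𝓝 0) := by
  have hm : Monotone sqIter := monotone_nat_of_le_succ fun n => by linarith [sqIter_step n]
  have hb : BddAbove (Set.range sqIter) :=
    ⟨1, by rintro _ ⟨n, rfl⟩; exact (sqIter_mem n).2.le⟩
  have h := tendsto_atTop_ciSup hm hb
  simpa using ((tendsto_add_atTop_iff_nat 1).2 h).sub h

/-- the iteration on kernels -/
def iterOp (X : GOp T Unit Unit) : ℕ → GOp T Unit Unit
  | 0 => []
  | n + 1 => GOp.smul (1 / 2) (X ++ (iterOp X n).mul (iterOp X n))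

/-- the increments of the iteration -/
def gapOp (X : GOp T Unit Unit) (n : ℕ) : GOp T Unit Unit :=
  iterOp X (n + 1) ++ (iterOp X n).smul (-1)

lemma iterOp_symm {X : GOp T Unit Unit} (hX : ∀ x y, X.ker x y = X.ker y x) :
    ∀ n x y, (iterOp X n).ker x y = (iterOp X n).ker y x
  | 0, x, y => by simp [iterOp, GOp.ker]
  | n + 1, x, y => by
    simp only [iterOp, ker_smul, ker_append, hX x y,
      mul_symm (iterOp_symm hX n) (iterOp_symm hX n) x y]

lemma gapOp_ker (X : GOp T Unit Unit) (n : ℕ) (x y : Ω × Unit) :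
    (gapOp X n).ker x y = (iterOp X (n + 1)).ker x y - (iterOp X n).ker x y := by
  simp [gapOp, ker_append, ker_smul, sub_eq_add_neg]

lemma iterOp_bound {X : GOp T Unit Unit} (hX : OpBd X.ker 1) :
    ∀ n, OpBd (iterOp X n).ker (sqIter n) ∧
      OpBd (gapOp X n).ker (sqIter (n + 1) - sqIter n) := by
  have hY : ∀ n, OpBd (iterOp X n).ker (sqIter n) := by
    intro n
    induction n with
    | zero => intro s t f g; simp [iterOp, GOp.ker, sqIter]
    | succ n ih =>
      have h1 := opBd_smul (by norm_num : (0 : ℝ) ≤ 1 / 2)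
        (opBd_add hX (opBd_mul (sqIter_mem n).1 (sqIter_mem n).1 ih ih))
      refine opBd_congr (k := fun x y => 1 / 2 * (X.ker x y + ((iterOp X n).mul (iterOp X n)).ker x y))
        (fun x y => by simp [iterOp, ker_smul, ker_append]) ?_
      convert h1 using 1
      simp only [sqIter]
      ring
  intro n
  refine ⟨hY n, ?_⟩
  induction n with
  | zero =>
    refine opBd_congr (k := fun x y => 1 / 2 * X.ker x y) (fun x y => ?_) ?_
    · rw [gapOp_ker]
      have h0 : ((iterOp X 0).mul (iterOp X 0)).ker x y = 0 := by simp [iterOp, GOp.mul, GOp.ker]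
      rw [show iterOp X (0 + 1) = GOp.smul (1 / 2) (X ++ (iterOp X 0).mul (iterOp X 0)) from rfl,
        ker_smul, ker_append, h0]
      simp [iterOp, GOp.ker]
    · convert opBd_smul (by norm_num : (0 : ℝ) ≤ 1 / 2) hX using 1
      norm_num [sqIter]
  | succ n ih =>
    have hd := (sqIter_step n).le
    have h1 := opBd_smul (by norm_num : (0 : ℝ) ≤ 1 / 2)
      (opBd_add (opBd_mul (sqIter_mem (n + 1)).1 hd (hY (n + 1)) ih)
        (opBd_mul hd (sqIter_mem n).1 ih (hY n)))
    refine opBd_congr (k := fun x y => 1 / 2 * (((iterOp X (n + 1)).mul (gapOp X n)).ker x y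
      + ((gapOp X n).mul (iterOp X n)).ker x y)) (fun x y => ?_) ?_
    · rw [gapOp_ker X (n + 1), gapOp, mul_append_right_ker, mul_append_left_ker,
        mul_smul_right_ker, mul_smul_left_ker,
        show iterOp X (n + 1 + 1) =
          GOp.smul (1 / 2) (X ++ (iterOp X (n + 1)).mul (iterOp X (n + 1))) from rfl,
        ker_smul, ker_append]
      have e : (iterOp X (n + 1)).ker x y = 1 / 2 * (X.ker x y
          + ((iterOp X n).mul (iterOp X n)).ker x y) := by
        simp [iterOp, ker_smul, ker_append]
      rw [e]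
      ring
    · convert h1 using 1
      simp only [sqIter]
      ring

lemma form3_sym_le {F : List (M × M × M)} {G : C(Ω, ℝ) →ₗ[ℝ] ℝ}
    (hF : ∀ u, 0 ≤ form3 T F u u ∧ form3 T F u u ≤ G (u * u)) {d : ℝ} (hd : 0 < d)
    (u v : C(Ω, ℝ)) :
    form3 T F u v + form3 T F v u ≤ d⁻¹ * G (u * u) + d * G (v * v) := by
  have h0 := (hF (d⁻¹ • u + (-1 : ℝ) • v)).1
  simp only [frm_form3_add_left, frm_form3_add_right, frm_form3_smul_left, frm_form3_smul_right] at h0
  have h1 : d⁻¹ * (form3 T F u v + form3 T F v u) ≤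
      d⁻¹ * (d⁻¹ * form3 T F u u) + form3 T F v v := by linarith
  have hu := mul_le_mul_of_nonneg_left (hF u).2 (inv_nonneg.2 hd.le)
  have hv := mul_le_mul_of_nonneg_left (hF v).2 hd.le
  have h2 := mul_le_mul_of_nonneg_left h1 hd.le
  rw [← mul_assoc, mul_inv_cancel₀ hd.ne', one_mul, mul_add, ← mul_assoc,
    mul_inv_cancel₀ hd.ne', one_mul] at h2
  linarith

lemma sum_app_sq_le (hsep : SepSpec T) {D : GOp T Unit Unit} {c : ℝ} (hD : OpBd D.ker c) :
    ∀ᶠ P : Part Ω in atTop, ∀ b, ∑ e, (D.app (Pi.single () (P.e e)) () b) ^ 2 ≤ c ^ 2 := by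
  filter_upwards [hsep (D.map fun t => t.g)] with P hP b
  set s := (reach D b).filter fun a => D.ker (b, ()) (a, ()) ≠ 0 with hs
  have hnz : ∀ a ∈ s, ∃ t ∈ D, t.g.ran b = 1 ∧ t.g.toDom b = a := by
    intro a ha
    by_contra hc
    refine (Finset.mem_filter.1 ha).2 (List.sum_eq_zero fun z hz => ?_)
    obtain ⟨t, ht, rfl⟩ := List.mem_map.1 hz
    split_ifs with h
    · rcases idem_zero_or_one t.g.ran_idem b with hr | hr
      · show t.coef b * t.g.ran b = 0
        rw [hr, mul_zero]
      · exact absurd ⟨t, ht, hr, h.2.2⟩ hc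
    · rfl
  have happ : ∀ e, D.app (Pi.single () (P.e e)) () b =
      ∑ a ∈ s, D.ker (b, ()) (a, ()) * P.e e a := by
    intro e
    rw [frm_app_eq_sum D _ b (reach D b) fun t ht => mem_reach ht b, Fintype.sum_unique]
    simp only [Pi.single_eq_same]
    rw [hs, Finset.sum_filter]
    refine Finset.sum_congr rfl fun a _ => ?_
    split_ifs with h
    · rfl
    · have h' : D.ker (b, ()) (a, ()) = 0 := not_not.1 h
      rw [show D.ker (b, default) (a, default) = D.ker (b, ()) (a, ()) from rfl, h', zero_mul]
  have hsq : ∀ e, (D.app (Pi.single () (P.e e)) () b) ^ 2 =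
      ∑ a ∈ s, D.ker (b, ()) (a, ()) ^ 2 * P.e e a := by
    intro e
    rw [happ]
    by_cases h : ∃ a ∈ s, P.e e a = 1
    · obtain ⟨a, ha, hea⟩ := h
      have hz : ∀ a' ∈ s, a' ≠ a → P.e e a' = 0 := by
        intro a' ha' hne
        refine (idem_zero_or_one (P.isPartition.idem e) a').resolve_right fun h1 => hne ?_
        obtain ⟨t, ht, htr, hta⟩ := hnz a ha
        obtain ⟨t', ht', htr', hta'⟩ := hnz a' ha'
        have := hP t.g (List.mem_map_of_mem ht) t'.g (List.mem_map_of_mem ht') b e htr htr'
          (by rw [hta]; exact hea) (by rw [hta']; exact h1)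
        rw [← hta, ← hta', this]
      rw [Finset.sum_eq_single a (fun a' ha' hne => by rw [hz a' ha' hne, mul_zero])
          (fun h' => absurd ha h'),
        Finset.sum_eq_single a (fun a' ha' hne => by rw [hz a' ha' hne, mul_zero])
          (fun h' => absurd ha h'), hea, mul_one, mul_one]
    · have hz : ∀ a ∈ s, P.e e a = 0 := fun a ha =>
        (idem_zero_or_one (P.isPartition.idem e) a).resolve_right fun h1 => h ⟨a, ha, h1⟩
      rw [Finset.sum_eq_zero fun a ha => by rw [hz a ha, mul_zero],
        Finset.sum_eq_zero fun a ha => by rw [hz a ha, mul_zero]]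
      norm_num
  have hsum : ∀ a, ∑ e, P.e e a = 1 := fun a => by
    rw [← ContinuousMap.sum_apply, P.isPartition.sum_one]; rfl
  simp only [hsq]
  rw [Finset.sum_comm]
  simp only [← Finset.mul_sum, hsum, mul_one]
  have := opBd_row hD (b, ()) (s ×ˢ ({()} : Finset Unit))
  simpa [Finset.sum_product] using this

/-- positive forms are monotone in the covariance -/
theorem formSpec (hsep : SepSpec T) : FormSpec T := by
  intro F G hG hF k S hS η hη
  set one : GOp T Unit Unit := GOp.diag fun _ : Unit => (1 : C(Ω, ℝ)) with hone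
  set X : GOp T Unit Unit := S.mul S.tp with hX
  have hXs : ∀ x y, X.ker x y = X.ker y x := fun x y =>
    mul_symm (fun x y => (ker_tp S x y).symm) (fun x y => ker_tp S y x) x y
  have hXb : OpBd X.ker 1 := by
    have h1 : OpBd S.tp.ker 1 := opBd_congr (fun y x => (ker_tp S x y).symm) (opBd_tp hS)
    simpa using opBd_mul zero_le_one zero_le_one hS h1
  obtain ⟨n, hn⟩ : ∃ n, (sqIter (n + 1) - sqIter n) * (2 * G 1) < η / 3 := by
    have h := sqIter_gap.mul_const (2 * G 1)
    rw [zero_mul] at h
    exact (h.eventually (gt_mem_nhds (by linarith : (0 : ℝ) < η / 3))).exists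
  set d := sqIter (n + 1) - sqIter n with hd
  set Y := iterOp X n with hY
  set D := gapOp X n with hD
  have hDs : ∀ x y, D.ker x y = D.ker y x := fun x y => by
    simp only [hD, gapOp_ker, iterOp_symm hXs _ x y]
  set Q : GOp T Unit Unit := one ++ Y.smul (-1) with hQ
  have hQs : ∀ x y, Q.ker x y = Q.tp.ker x y := fun x y => by
    rw [ker_tp]
    simp only [hQ, hone, hY, ker_append, ker_smul, ker_one, iterOp_symm hXs n x y, eq_comm]
  have hone1 : ∀ x y, one.ker x y = one.tp.ker x y := fun x y => by
    rw [ker_tp, hone]; simp only [ker_one, eq_comm]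
  have hkey : ∀ x y, GOp.ker (X ++ Q.mul Q.tp) x y = GOp.ker (one ++ (D ++ D)) x y := by
    intro x y
    rw [ker_append, mul_congr (fun _ _ => rfl) (fun x y => (hQs x y).symm) x y, hQ,
      mul_append_left_ker, mul_append_right_ker, mul_append_right_ker, mul_smul_right_ker,
      mul_smul_right_ker, mul_smul_left_ker, mul_smul_left_ker]
    simp only [hone, one_mul_ker, mul_one_ker, ker_append, hD, gapOp_ker, hY, iterOp, ker_smul]
    ring
  have hS1 : formVal F S S = formVal F one X := by
    rw [hX, ← formVal_move]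
    exact formVal_congr F (fun x y => (one_mul_ker S x y).symm) fun _ _ => rfl
  have hQ1 : formVal F Q Q = formVal F one (Q.mul Q.tp) := by
    rw [← formVal_move]
    exact formVal_congr F (fun x y => (one_mul_ker Q x y).symm) fun _ _ => rfl
  have hD1 : formVal F D one = formVal F one D := by
    calc formVal F D one = formVal F (one.mul D) one :=
          formVal_congr F (fun x y => (one_mul_ker D x y).symm) fun _ _ => rfl
      _ = formVal F one (one.mul D.tp) := formVal_move F _ _ _
      _ = formVal F one D := formVal_congr F (fun _ _ => rfl) fun x y => by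
          rw [hone, one_mul_ker, ker_tp, hDs]
  have hQpos : 0 ≤ formVal F Q Q := ge_of_tendsto (tendsto_diagSum F Q Q) (.of_forall fun P =>
    Finset.sum_nonneg fun j _ => Finset.sum_nonneg fun e _ => (hF _).1)
  have hmono : ∀ f f' : C(Ω, ℝ), f ≤ f' → G f ≤ G f' := fun f f' h => by
    have := hG _ (sub_nonneg.2 h)
    rw [map_sub] at this; linarith
  have hdpos : 0 < d := sqIter_step n
  have hsym : formVal F D one + formVal F one D ≤ d * (2 * G 1) := by
    refine le_of_tendsto ((tendsto_diagSum F D one).add (tendsto_diagSum F one D)) ?_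
    filter_upwards [sum_app_sq_le hsep (iterOp_bound hXb n).2] with P hP
    simp only [diagSum, Fintype.sum_unique, ← Finset.sum_add_distrib]
    have h1 : ∀ e, one.app (Pi.single () (P.e e)) () = P.e e := fun e => by
      simp [hone, GOp.app, GOp.diag, GElt.one]
    show ∑ e, (form3 T F (D.app (Pi.single () (P.e e)) ()) (one.app (Pi.single () (P.e e)) ())
      + form3 T F (one.app (Pi.single () (P.e e)) ()) (D.app (Pi.single () (P.e e)) ())) ≤ _
    simp only [h1]
    refine (Finset.sum_le_sum fun e _ => form3_sym_le hF hdpos _ _).trans ?_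
    simp only [P.isPartition.idem]
    rw [Finset.sum_add_distrib, ← Finset.mul_sum, ← Finset.mul_sum, ← map_sum, ← map_sum,
      P.isPartition.sum_one]
    have h2 : G (∑ e, D.app (Pi.single () (P.e e)) () * D.app (Pi.single () (P.e e)) ())
        ≤ d ^ 2 * G 1 := by
      rw [← smul_eq_mul (d ^ 2), ← map_smul]
      refine hmono _ _ fun b => ?_
      simpa [ContinuousMap.sum_apply, ← sq] using hP b
    calc d⁻¹ * G _ + d * G 1 ≤ d⁻¹ * (d ^ 2 * G 1) + d * G 1 :=
          add_le_add (mul_le_mul_of_nonneg_left h2 (inv_nonneg.2 hdpos.le)) le_rfl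
      _ = d * (2 * G 1) := by field_simp; ring
  have hmain : formVal F S S ≤ formVal F one one + η / 3 := by
    have h := formVal_congr F (X := one) (X' := one) (fun _ _ => rfl) hkey
    rw [formVal_add_right, formVal_add_right, formVal_add_right] at h
    linarith [hS1, hQ1, hD1]
  have hL := (tendsto_diagSum F S S).eventually (gt_mem_nhds (by linarith :
    formVal F S S < formVal F S S + η / 3))
  have hR := (tendsto_diagSum F one one).eventually (lt_mem_nhds (by linarith :
    formVal F one one - η / 3 < formVal F one one))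
  filter_upwards [hL, hR] with P hP1 hP2
  rw [hone, diagSum_diag_one] at hP2
  show diagSum F S S P ≤ _
  linarith

end Vale.Agent.P078.T3
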